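import Mathlib

/-!
# P173 part L, algebra: a group containing `ℤ²` does not have projective dimension `≤ 1`

If the augmentation ideal `I` of `ℤΓ` is projective, take a section `s : I → I →₀ ℤΓ` of the
canonical surjection.  For commuting `g`, `h` we get `(h-1) s(g-1) = (g-1) s(h-1)`; since
`⟨g,h⟩ = ℤ²`, every coefficient of `s(g-1)` is in `(g-1) ℤΓ`.  So `g - 1 = (g-1) u` with `u ∈ I`,
`u = 1`, contradiction.
-/

namespace Vale.Agent.P173.L

open CategoryTheory

/-- a finitely supported function invariant under a map with infinite orbits vanishes -/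
theorem finsupp_inv {Q : Type} {σ : Q → Q} (hσ : Function.Injective σ)
    (hinf : ∀ x (n : ℕ), σ^[n] x = x → n = 0) {z : Q →₀ ℤ}
    (hz : Finsupp.mapDomain σ z = z) : z = 0 := by
  by_contra hne
  obtain ⟨x, hx⟩ := Finsupp.ne_iff.1 hne
  have h1 : ∀ y, z (σ y) = z y := fun y => by
    conv_lhs => rw [← hz]
    exact Finsupp.mapDomain_apply hσ z y
  have h2 : ∀ n : ℕ, z (σ^[n] x) = z x := by
    intro n
    induction n with
    | zero => rfl
    | succ n ih => rw [Function.iterate_succ_apply', h1, ih]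
  have key : ∀ m n : ℕ, m ≤ n → σ^[m] x = σ^[n] x → m = n := by
    intro m n hle hmn
    have e : n = m + (n - m) := by omega
    have h4 : σ^[m] (σ^[n - m] x) = σ^[m] x := by
      rw [← Function.iterate_add_apply, ← e]
      exact hmn.symm
    have h5 := hinf x (n - m) (hσ.iterate m h4)
    omega
  have h3 : Function.Injective (fun n : ℕ => σ^[n] x) := by
    intro m n hmn
    rcases le_total m n with h | h
    · exact key m n h hmn
    · exact (key n m h hmn.symm).symm
  have h6 : Set.range (fun n : ℕ => σ^[n] x) ⊆ z.support := by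
    rintro _ ⟨n, rfl⟩
    rw [Finset.mem_coe, Finsupp.mem_support_iff, h2]
    exact hx
  exact (Set.infinite_range_of_injective h3) (z.support.finite_toSet.subset h6)

section
variable {Γ : Type} [Group Γ]

/-- `g - 1` -/
noncomputable def X (g : Γ) : MonoidAlgebra ℤ Γ := MonoidAlgebra.single g 1 - 1

theorem coeff_single_mul (g : Γ) (p : MonoidAlgebra ℤ Γ) :
    (MonoidAlgebra.single g 1 * p).coeff = Finsupp.mapDomain (fun x => g * x) p.coeff := by
  ext y
  rw [MonoidAlgebra.coeff_single_mul_apply, one_mul]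
  have e : y = g * (g⁻¹ * y) := by rw [mul_inv_cancel_left]
  conv_rhs => rw [e]
  exact (Finsupp.mapDomain_apply (mul_right_injective g) p.coeff (g⁻¹ * y)).symm

theorem coeff_X_mul (g : Γ) (p : MonoidAlgebra ℤ Γ) :
    (X g * p).coeff = Finsupp.mapDomain (fun x => g * x) p.coeff - p.coeff := by
  unfold X
  rw [sub_mul, one_mul, MonoidAlgebra.coeff_sub, coeff_single_mul]

theorem X_inj {g : Γ} (hg : ∀ n : ℕ, g ^ n = 1 → n = 0) {p : MonoidAlgebra ℤ Γ}
    (h : X g * p = 0) : p = 0 := by
  have h1 : Finsupp.mapDomain (fun x => g * x) p.coeff = p.coeff := by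
    have h2 := congrArg MonoidAlgebra.coeff h
    rw [coeff_X_mul, MonoidAlgebra.coeff_zero] at h2
    exact sub_eq_zero.1 h2
  rw [← MonoidAlgebra.coeff_eq_zero]
  refine finsupp_inv (mul_right_injective g) (fun x n hn => hg n ?_) h1
  have e : (fun x => g * x)^[n] x = g ^ n * x := congrFun (mul_left_iterate g n) x
  rw [e] at hn
  exact mul_eq_right.1 hn

theorem X_zpow (g : Γ) (k : ℤ) :
    ∃ r : MonoidAlgebra ℤ Γ, MonoidAlgebra.single (g ^ k) 1 - 1 = X g * r := by
  have hs : ∀ a b : Γ, (MonoidAlgebra.single (a * b) 1 : MonoidAlgebra ℤ Γ) =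
      MonoidAlgebra.single a 1 * MonoidAlgebra.single b 1 := by
    intro a b
    rw [MonoidAlgebra.single_mul_single, one_mul]
  induction k using Int.induction_on with
  | zero =>
    refine ⟨0, ?_⟩
    rw [zpow_zero, mul_zero, ← MonoidAlgebra.one_def, sub_self]
  | succ k ih =>
    obtain ⟨r, hr⟩ := ih
    refine ⟨MonoidAlgebra.single (g ^ (k : ℤ)) 1 + r, ?_⟩
    rw [mul_add, ← hr, add_comm (k : ℤ) 1, zpow_add, zpow_one, hs]
    unfold X
    rw [sub_mul, one_mul]
    abel
  | pred k ih =>
    obtain ⟨r, hr⟩ := ih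
    refine ⟨r - MonoidAlgebra.single (g ^ (-(k : ℤ) - 1)) 1, ?_⟩
    have e : g ^ (-(k : ℤ)) = g * g ^ (-(k : ℤ) - 1) := by
      rw [← zpow_one_add]
      congr 1
      ring
    rw [mul_sub, ← hr, e, hs]
    unfold X
    rw [sub_mul, one_mul]
    abel

theorem X_div {g h : Γ} (hc : Commute g h)
    (hind : ∀ k l : ℤ, g ^ k * h ^ l = 1 → k = 0 ∧ l = 0) {p q : MonoidAlgebra ℤ Γ}
    (e : X h * p = X g * q) : ∃ r, p = X g * r := by
  classical
  let st : Setoid Γ := QuotientGroup.rightRel (Subgroup.zpowers g)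
  let mk : Γ → Quotient st := Quotient.mk st
  have hmk : ∀ x y : Γ, mk x = mk y ↔ y * x⁻¹ ∈ Subgroup.zpowers g := by
    intro x y
    rw [← QuotientGroup.rightRel_apply]
    exact Quotient.eq
  have hmkg : ∀ x, mk (g * x) = mk x := by
    intro x
    rw [hmk, mul_inv_rev, mul_inv_cancel_left]
    exact Subgroup.inv_mem _ (Subgroup.mem_zpowers g)
  have hcz : ∀ z ∈ Subgroup.zpowers g, h * z * h⁻¹ = z := by
    rintro _ ⟨k, rfl⟩
    have h1 : h * g ^ k = g ^ k * h := (hc.symm.zpow_right k).eq
    change h * g ^ k * h⁻¹ = g ^ k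
    rw [h1, mul_inv_cancel_right]
  have hmap : ∀ x y : Γ, mk x = mk y → mk (h * x) = mk (h * y) := by
    intro x y hxy
    rw [hmk] at hxy ⊢
    have e1 : h * y * (h * x)⁻¹ = h * (y * x⁻¹) * h⁻¹ := by group
    rw [e1, hcz _ hxy]
    exact hxy
  have hmap' : ∀ x y : Γ, mk (h * x) = mk (h * y) → mk x = mk y := by
    intro x y hxy
    rw [hmk] at hxy ⊢
    have e1 : h * y * (h * x)⁻¹ = h * (y * x⁻¹) * h⁻¹ := by group
    rw [e1] at hxy
    have e2 : y * x⁻¹ = h⁻¹ * (h * (y * x⁻¹) * h⁻¹) * h := by group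
    have e3 : h⁻¹ * (h * (y * x⁻¹) * h⁻¹) * h = h * (y * x⁻¹) * h⁻¹ := by
      have h4 := hcz _ hxy
      have h5 : h⁻¹ * (h * (h * (y * x⁻¹) * h⁻¹) * h⁻¹) * h = h * (y * x⁻¹) * h⁻¹ := by group
      rwa [h4] at h5
    rw [e2, e3]
    exact hxy
  let τ : Quotient st → Quotient st := Quotient.lift (fun x => mk (h * x))
    (fun x y hxy => hmap x y (Quotient.sound hxy))
  have hτ : ∀ x, τ (mk x) = mk (h * x) := fun x => rfl
  have hτi : Function.Injective τ := by
    intro a b
    induction a using Quotient.inductionOn with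
    | h x =>
      induction b using Quotient.inductionOn with
      | h y => exact fun hab => hmap' x y hab
  have hτn : ∀ (n : ℕ) (x : Γ), τ^[n] (mk x) = mk (h ^ n * x) := by
    intro n
    induction n with
    | zero => intro x; rw [pow_zero, one_mul]; rfl
    | succ n ih =>
      intro x
      rw [Function.iterate_succ_apply', ih, hτ, pow_succ', mul_assoc]
  -- the image of `p` in the orbit space vanishes
  have hS : Finsupp.mapDomain mk p.coeff = 0 := by
    refine finsupp_inv hτi ?_ ?_
    · intro a n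
      induction a using Quotient.inductionOn with
      | h x =>
        intro hn
        have h1 : mk (h ^ n * x) = mk x := by rw [← hτn]; exact hn
        rw [hmk] at h1
        have h2 : x * (h ^ n * x)⁻¹ = (h ^ n)⁻¹ := by group
        rw [h2] at h1
        obtain ⟨k, hk⟩ := h1
        have h3 : g ^ k * h ^ (n : ℤ) = 1 := by
          have h4 : g ^ k = (h ^ n)⁻¹ := hk
          rw [h4, zpow_natCast, inv_mul_cancel]
        exact_mod_cast (hind k n h3).2
    · have h1 := congrArg (fun z : MonoidAlgebra ℤ Γ => Finsupp.mapDomain mk z.coeff) e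
      simp only [coeff_X_mul] at h1
      have hsub : ∀ u v : Γ →₀ ℤ, Finsupp.mapDomain mk (u - v) =
          Finsupp.mapDomain mk u - Finsupp.mapDomain mk v := fun u v =>
        map_sub (Finsupp.mapDomain.addMonoidHom mk) u v
      rw [hsub, hsub, ← Finsupp.mapDomain_comp, ← Finsupp.mapDomain_comp] at h1
      have e1 : (mk ∘ fun x => g * x) = mk := funext hmkg
      have e2 : (mk ∘ fun x => h * x) = τ ∘ mk := rfl
      rw [e1, e2, sub_self, Finsupp.mapDomain_comp] at h1
      exact sub_eq_zero.1 h1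
  -- every element is congruent to its image under the choice of representatives
  have hrep : ∀ z : Γ →₀ ℤ, ∃ r, MonoidAlgebra.ofCoeff z -
      MonoidAlgebra.ofCoeff (Finsupp.mapDomain (fun x => (mk x).out) z) = X g * r := by
    intro z
    induction z using Finsupp.induction_linear with
    | zero => exact ⟨0, by simp⟩
    | add u v hu hv =>
      obtain ⟨r, hr⟩ := hu
      obtain ⟨s, hs⟩ := hv
      refine ⟨r + s, ?_⟩
      rw [mul_add, ← hr, ← hs, Finsupp.mapDomain_add, MonoidAlgebra.ofCoeff_add,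
        MonoidAlgebra.ofCoeff_add]
      abel
    | single x m =>
      have h1 : mk ((mk x).out) = mk x := Quotient.out_eq _
      rw [hmk] at h1
      obtain ⟨k, hk⟩ := h1
      have h2 : x = g ^ k * (mk x).out := by
        have h3 : g ^ k = x * ((mk x).out)⁻¹ := hk
        rw [h3, inv_mul_cancel_right]
      obtain ⟨r, hr⟩ := X_zpow g k
      refine ⟨r * MonoidAlgebra.single (mk x).out m, ?_⟩
      rw [← mul_assoc, ← hr, sub_mul, one_mul, MonoidAlgebra.single_mul_single, ← h2, one_mul,
        Finsupp.mapDomain_single]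
      rfl
  obtain ⟨r, hr⟩ := hrep p.coeff
  refine ⟨r, ?_⟩
  have e3 : Finsupp.mapDomain (fun x => (mk x).out) p.coeff = 0 := by
    have e4 : (fun x : Γ => (mk x).out) = Quotient.out ∘ mk := rfl
    rw [e4, Finsupp.mapDomain_comp, hS, Finsupp.mapDomain_zero]
  rw [e3, MonoidAlgebra.ofCoeff_zero, sub_zero] at hr
  exact hr

theorem not_pd {g h : Γ} (hc : Commute g h)
    (hind : ∀ k l : ℤ, g ^ k * h ^ l = 1 → k = 0 ∧ l = 0) :
    ¬ HasProjectiveDimensionLE
      (ModuleCat.of (MonoidAlgebra ℤ Γ) (Representation.trivial ℤ Γ ℤ).asModule) 1 := by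
  classical
  intro hpd
  let M := (Representation.trivial ℤ Γ ℤ).asModule
  let ε : MonoidAlgebra ℤ Γ →ₗ[MonoidAlgebra ℤ Γ] M :=
    LinearMap.toSpanSingleton (MonoidAlgebra ℤ Γ) M
      ((Representation.trivial ℤ Γ ℤ).asModuleEquiv.symm (1 : ℤ))
  have hε : ∀ (x : Γ) (m : ℤ), ε (MonoidAlgebra.single x m) =
      (Representation.trivial ℤ Γ ℤ).asModuleEquiv.symm m := by
    intro x m
    change MonoidAlgebra.single x m • ((Representation.trivial ℤ Γ ℤ).asModuleEquiv.symm (1 : ℤ)) = _
    rw [Representation.single_smul]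
    change m • (1 : ℤ) = m
    simp
  have hsurj : Function.Surjective ε := by
    intro y
    exact ⟨MonoidAlgebra.single 1 ((Representation.trivial ℤ Γ ℤ).asModuleEquiv y), by
      rw [hε]; exact (Representation.trivial ℤ Γ ℤ).asModuleEquiv.symm_apply_apply y⟩
  let I := LinearMap.ker ε
  let S : ShortComplex (ModuleCat (MonoidAlgebra ℤ Γ)) :=
    ShortComplex.mk (ModuleCat.ofHom I.subtype) (ModuleCat.ofHom ε) (by
      ext x
      exact x.2)
  have hS : S.ShortExact := by
    refine { exact := ?_, mono_f := ?_, epi_g := ?_ }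
    · rw [ShortComplex.moduleCat_exact_iff]
      intro x hx
      exact ⟨⟨x, hx⟩, rfl⟩
    · rw [ModuleCat.mono_iff_injective]
      exact I.injective_subtype
    · rw [ModuleCat.epi_iff_surjective]
      exact hsurj
  have hproj2 : Projective S.X₂ := by
    change Projective (ModuleCat.of (MonoidAlgebra ℤ Γ) (MonoidAlgebra ℤ Γ))
    rw [← IsProjective.iff_projective]
    infer_instance
  have h1 : HasProjectiveDimensionLT S.X₁ 1 :=
    hS.hasProjectiveDimensionLT_X₁ 1 inferInstance hpd
  have h2 : Projective (ModuleCat.of (MonoidAlgebra ℤ Γ) I) :=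
    projective_iff_hasProjectiveDimensionLT_one.2 h1
  have h3 : Module.Projective (MonoidAlgebra ℤ Γ) I := IsProjective.iff_projective _ |>.2 h2
  obtain ⟨s, hs⟩ := Module.projective_def'.1 h3
  have hX : ∀ x : Γ, X x ∈ I := by
    intro x
    change ε (MonoidAlgebra.single x 1 - 1) = 0
    rw [map_sub, hε, MonoidAlgebra.one_def, hε, sub_self]
  let gx : I := ⟨X g, hX g⟩
  let hx : I := ⟨X h, hX h⟩
  have hcomm : X h • gx = X g • hx := by
    apply Subtype.ext
    change X h * X g = X g * X h
    unfold X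
    have h4 : (MonoidAlgebra.single g 1 : MonoidAlgebra ℤ Γ) * MonoidAlgebra.single h 1 =
        MonoidAlgebra.single h 1 * MonoidAlgebra.single g 1 := by
      rw [MonoidAlgebra.single_mul_single, MonoidAlgebra.single_mul_single, hc.eq]
    simp only [sub_mul, mul_sub, h4, mul_one, one_mul]
    abel
  have hcomm2 : X h • s gx = X g • s hx := by
    rw [← map_smul, hcomm, map_smul]
  have hq : ∀ m : I, ∃ r, s gx m = X g * r := by
    intro m
    apply X_div hc hind (q := s hx m)
    have h5 := DFunLike.congr_fun hcomm2 m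
    exact h5
  choose q hq using hq
  let q' : I →₀ MonoidAlgebra ℤ Γ :=
    Finsupp.onFinset (s gx).support (fun m => if s gx m = 0 then 0 else q m) (by
      intro m hm
      rw [Finsupp.mem_support_iff]
      intro h0
      exact hm (if_pos h0))
  have hq' : s gx = X g • q' := by
    ext1 m
    change s gx m = X g * (if s gx m = 0 then 0 else q m)
    by_cases h0 : s gx m = 0
    · rw [if_pos h0, h0, mul_zero]
    · rw [if_neg h0]
      exact hq m
  let u : I := Finsupp.linearCombination (MonoidAlgebra ℤ Γ) id q'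
  have hu : gx = X g • u := by
    have h6 := LinearMap.congr_fun hs gx
    change Finsupp.linearCombination (MonoidAlgebra ℤ Γ) id (s gx) = gx at h6
    rw [← h6, hq', map_smul]
  have hu' : X g = X g * (u : MonoidAlgebra ℤ Γ) := congrArg Subtype.val hu
  have h7 : X g * (1 - (u : MonoidAlgebra ℤ Γ)) = 0 := by
    rw [mul_sub, mul_one, ← hu', sub_self]
  have h8 := X_inj (fun n hn => by
    have h9 := (hind n 0 (by rw [zpow_natCast, zpow_zero, mul_one]; exact hn)).1
    exact_mod_cast h9) h7
  have h10 : (u : MonoidAlgebra ℤ Γ) = 1 := (sub_eq_zero.1 h8).symm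
  have h11 : ε (u : MonoidAlgebra ℤ Γ) = 0 := u.2
  rw [h10, MonoidAlgebra.one_def, hε] at h11
  have h12 : (1 : ℤ) = 0 := h11
  exact one_ne_zero h12

end

end Vale.Agent.P173.L
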