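import Vale.Agent.Lib.P173.Interface
import Vale.Agent.Lib.P173.WBase
import Vale.Agent.Lib.P173.L.Alg

/-!
# P173 part L: the group `G` contains `ℤ²`, so its cohomological dimension is not `≤ 1`
-/

namespace Vale.Agent.P173
namespace L

theorem two_cases (z : Multiplicative (ZMod 2)) : z = 1 ∨ z = Multiplicative.ofAdd 1 := by
  revert z
  decide

/-- the homomorphism `ℤ/2 → H` given by an element with square one -/
noncomputable def ofInv {H : Type} [Group H] (y : H) (hy : y * y = 1) :
    Multiplicative (ZMod 2) →* H where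
  toFun z := if z = 1 then 1 else y
  map_one' := if_pos rfl
  map_mul' z z' := by
    have h1 : (Multiplicative.ofAdd 1 : Multiplicative (ZMod 2)) ≠ 1 := by decide
    have h2 : (Multiplicative.ofAdd 1 : Multiplicative (ZMod 2)) * Multiplicative.ofAdd 1 = 1 := by
      decide
    rcases two_cases z with rfl | rfl
    · rw [if_pos rfl, one_mul, one_mul]
    · rcases two_cases z' with rfl | rfl
      · rw [mul_one, if_pos rfl, mul_one]
      · rw [h2, if_pos rfl, if_neg h1, hy]

theorem ofInv_ne {H : Type} [Group H] (y : H) (hy : y * y = 1) {z : Multiplicative (ZMod 2)}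
    (hz : z ≠ 1) : ofInv y hy z = y := if_neg hz

theorem detect (K : ColGraph) (A : Type) [CommGroup A] {a : A}
    (φ : A →* Multiplicative (ZMod 2)) (hφ : φ a ≠ 1) {u u' : K.V} (huu : u ≠ u')
    (hcol : K.col u = K.col u') :
    ∃ F : K.W A →* DihedralGroup 0, F (K.of A u a) = DihedralGroup.sr 0 ∧
      F (K.of A u' a) = DihedralGroup.sr 1 ∧
      ∀ x, x ≠ u → x ≠ u' → F (K.of A x a) = 1 := by
  classical
  have hs : ∀ i : ZMod 0, (DihedralGroup.sr i : DihedralGroup 0) * DihedralGroup.sr i = 1 := by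
    intro i
    rw [DihedralGroup.sr_mul_sr, sub_self]
    rfl
  let f : K.V → A →* DihedralGroup 0 := fun x =>
    if x = u then (ofInv _ (hs 0)).comp φ else if x = u' then (ofInv _ (hs 1)).comp φ else 1
  have hf1 : f u = (ofInv _ (hs 0)).comp φ := if_pos rfl
  have hf2 : f u' = (ofInv _ (hs 1)).comp φ := by
    change (if u' = u then _ else _) = _
    rw [if_neg (Ne.symm huu), if_pos rfl]
  have hf3 : ∀ x, x ≠ u → x ≠ u' → f x = 1 := by
    intro x h1 h2
    change (if x = u then _ else _) = _
    rw [if_neg h1, if_neg h2]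
  obtain ⟨F, hF⟩ := K.exists_lift A f (by
    intro x y hxy b c
    have hc := K.proper x y hxy
    by_cases h1 : x ≠ u ∧ x ≠ u'
    · rw [hf3 x h1.1 h1.2]
      exact Commute.one_left _
    · by_cases h2 : y ≠ u ∧ y ≠ u'
      · rw [hf3 y h2.1 h2.2]
        exact Commute.one_right _
      · exfalso
        apply hc
        have h3 : K.col x = K.col u := by
          by_cases h4 : x = u
          · rw [h4]
          · have h5 : x = u' := by
              by_contra h6
              exact h1 ⟨h4, h6⟩
            rw [h5, hcol]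
        have h3' : K.col y = K.col u := by
          by_cases h4 : y = u
          · rw [h4]
          · have h5 : y = u' := by
              by_contra h6
              exact h2 ⟨h4, h6⟩
            rw [h5, hcol]
        rw [h3, h3'])
  refine ⟨F, ?_, ?_, ?_⟩
  · rw [hF, hf1]
    exact ofInv_ne _ (hs 0) hφ
  · rw [hF, hf2]
    exact ofInv_ne _ (hs 1) hφ
  · intro x h1 h2
    rw [hF, hf3 x h1 h2]
    rfl

theorem r_zpow_eq_one {k : ℤ} (h : (DihedralGroup.r 1 : DihedralGroup 0) ^ k = 1) : k = 0 := by
  rw [DihedralGroup.r_one_zpow] at h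
  have h1 : (DihedralGroup.r (k : ZMod 0) : DihedralGroup 0) = DihedralGroup.r 0 := h
  have h2 := DihedralGroup.r.inj h1
  exact h2

end L

open L

theorem partL : PartL := by
  intro K A _ a ha haa hsep v v' w w' hvv hww hcv hcw hvw hvw' hv'w hv'w'
  obtain ⟨φ, -, hφ⟩ := hsep ⊥ a (by rwa [Subgroup.mem_bot])
  have hgk : ∀ u u' : K.V, K.col u = K.col u' →
      K.of A u a * (K.of A u' a)⁻¹ ∈ (K.pi A).ker := by
    intro u u' huu
    rw [MonoidHom.mem_ker, map_mul, map_inv, K.pi_of, K.pi_of, huu, mul_inv_cancel]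
  let g : K.G A := (⟨K.of A v a * (K.of A v' a)⁻¹, hgk v v' hcv⟩ : (K.pi A).ker)
  let h : K.G A := (⟨K.of A w a * (K.of A w' a)⁻¹, hgk w w' hcw⟩ : (K.pi A).ker)
  have hg : K.incl A g = K.of A v a * (K.of A v' a)⁻¹ := rfl
  have hh : K.incl A h = K.of A w a * (K.of A w' a)⁻¹ := rfl
  have hinj : Function.Injective (K.incl A) := (K.pi A).ker.subtype_injective
  have hc : Commute g h := by
    apply hinj
    rw [map_mul, map_mul, hg, hh]
    have c1 := K.of_comm A hvw a a
    have c2 := K.of_comm A hvw' a a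
    have c3 := K.of_comm A hv'w a a
    have c4 := K.of_comm A hv'w' a a
    exact ((c1.mul_right c2.inv_right).mul_left (c3.inv_left.mul_right c4.inv_inv)).eq
  have hvc : K.col v ≠ K.col w := K.proper v w hvw
  have n1 : w ≠ v := fun e => hvc (by rw [e])
  have n2 : w ≠ v' := fun e => hvc (by rw [e, hcv])
  have n3 : w' ≠ v := fun e => hvc (by rw [hcw, e])
  have n4 : w' ≠ v' := fun e => hvc (by rw [hcw, e, hcv])
  obtain ⟨F1, f1, f2, f3⟩ := detect K A φ hφ hvv hcv
  obtain ⟨F2, g1, g2, g3⟩ := detect K A φ hφ hww hcw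
  have hr : (DihedralGroup.sr 0 : DihedralGroup 0) * (DihedralGroup.sr 1)⁻¹ =
      DihedralGroup.r 1 := by
    rw [DihedralGroup.inv_sr, DihedralGroup.sr_mul_sr, sub_zero]
  refine not_pd hc ?_
  intro k l hkl
  have e := congrArg (K.incl A) hkl
  rw [map_mul, map_zpow, map_zpow, map_one, hg, hh] at e
  constructor
  · have e1 := congrArg F1 e
    rw [map_mul, map_zpow, map_zpow, map_mul, map_mul, map_inv, map_inv, f1, f2,
      f3 w n1 n2, f3 w' n3 n4, hr, inv_one, one_mul, one_zpow, mul_one, map_one] at e1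
    exact r_zpow_eq_one e1
  · have e2 := congrArg F2 e
    rw [map_mul, map_zpow, map_zpow, map_mul, map_mul, map_inv, map_inv, g1, g2,
      g3 v n1.symm n3.symm, g3 v' n2.symm n4.symm, hr, inv_one, one_mul, one_zpow, one_mul,
      map_one] at e2
    exact r_zpow_eq_one e2

end Vale.Agent.P173
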